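import Mathlib

/-!
# Global flows of smooth compactly supported vector fields are smooth

Mathlib has Picard-Lindelöf but not the smooth dependence of solutions on initial data.
We prove: the flow of a `C^∞` compactly supported vector field on a finite-dimensional real
normed space is jointly `C^∞` in time and space.  The proof is the classical induction through
the variational equation, using bump functions to stay in the compactly supported class.
-/

set_option autoImplicit false

namespace Crest.Agent.Lib.SmoothFlow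

open Set Metric Filter Topology
open scoped NNReal ContDiff

section Gronwall

variable {E : Type*} [NormedAddCommGroup E] [NormedSpace ℝ E]

/-- Two-sided Gronwall inequality around time `0`. -/
theorem norm_le_gronwall_two_sided {f f' : ℝ → E} {K ε δ T : ℝ}
    (hf : ∀ t ∈ Icc (-T) T, HasDerivAt f (f' t) t)
    (h0 : ‖f 0‖ ≤ δ) (bound : ∀ t ∈ Icc (-T) T, ‖f' t‖ ≤ K * ‖f t‖ + ε)
    (t : ℝ) (ht : t ∈ Icc (-T) T) : ‖f t‖ ≤ gronwallBound δ K ε |t| := by
  rcases le_total 0 t with h | h
  · rw [abs_of_nonneg h]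
    have hT : 0 ≤ T := by linarith [ht.2]
    have sub : Icc 0 t ⊆ Icc (-T) T := fun u hu => ⟨by linarith [hu.1], by linarith [hu.2, ht.2]⟩
    have := norm_le_gronwallBound_of_norm_deriv_right_le (f := f) (f' := f') (δ := δ) (K := K)
      (ε := ε) (a := 0) (b := t)
      (fun u hu => (hf u (sub hu)).continuousAt.continuousWithinAt)
      (fun u hu => (hf u (sub (Ico_subset_Icc_self hu))).hasDerivWithinAt) h0
      (fun u hu => bound u (sub (Ico_subset_Icc_self hu))) t ⟨h, le_rfl⟩
    simpa using this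
  · rw [abs_of_nonpos h]
    have hT : 0 ≤ T := by linarith [ht.1]
    have sub : ∀ u ∈ Icc 0 (-t), -u ∈ Icc (-T) T := fun u hu =>
      ⟨by linarith [hu.2, ht.1], by linarith [hu.1]⟩
    have hd : ∀ u ∈ Icc 0 (-t), HasDerivAt (fun u => f (-u)) (-f' (-u)) u := by
      intro u hu
      have h1 := (hf (-u) (sub u hu))
      have h2 : HasDerivAt (fun u : ℝ => -u) (-1) u := (hasDerivAt_id u).neg
      have := h1.scomp u h2
      simpa [Function.comp_def] using this
    have := norm_le_gronwallBound_of_norm_deriv_right_le (f := fun u => f (-u))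
      (f' := fun u => -f' (-u)) (δ := δ) (K := K)
      (ε := ε) (a := 0) (b := -t)
      (fun u hu => (hd u hu).continuousAt.continuousWithinAt)
      (fun u hu => (hd u (Ico_subset_Icc_self hu)).hasDerivWithinAt) (by simpa using h0)
      (fun u hu => by
        have := bound (-u) (sub u (Ico_subset_Icc_self hu))
        simpa using this) (-t) ⟨by linarith, le_rfl⟩
    simpa using this

end Gronwall

section Existence

variable {E : Type*} [NormedAddCommGroup E] [NormedSpace ℝ E] [CompleteSpace E]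

/-- A bounded globally Lipschitz vector field has a global solution through every point. -/
theorem exists_global_solution {X : E → E} {K M : ℝ≥0} (hK : LipschitzWith K X)
    (hM : ∀ x, ‖X x‖ ≤ M) (x₀ : E) :
    ∃ γ : ℝ → E, γ 0 = x₀ ∧ ∀ t, HasDerivAt γ (X (γ t)) t := by
  -- solutions on `[-(n+1), n+1]`
  have key : ∀ n : ℕ, ∃ α : ℝ → E, α 0 = x₀ ∧
      ∀ t ∈ Icc (-((n : ℝ) + 1)) ((n : ℝ) + 1),
        HasDerivWithinAt α (X (α t)) (Icc (-((n : ℝ) + 1)) ((n : ℝ) + 1)) t := by
    intro n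
    have hn : (0 : ℝ) ≤ (n : ℝ) + 1 := by positivity
    have h0 : (0 : ℝ) ∈ Icc (-((n : ℝ) + 1)) ((n : ℝ) + 1) := ⟨by linarith, hn⟩
    let T : ℝ≥0 := ⟨(n : ℝ) + 1, hn⟩
    have hPL : IsPicardLindelof (fun _ => X) (⟨0, h0⟩ : Icc (-((n : ℝ) + 1)) ((n : ℝ) + 1)) x₀
        (M * T) 0 M K := by
      refine ⟨fun _ _ => hK.lipschitzOnWith, fun _ _ => continuousOn_const, fun _ _ x _ => hM x, ?_⟩
      show (M : ℝ) * max (((n : ℝ) + 1) - 0) (0 - (-((n : ℝ) + 1))) ≤ ((M * T : ℝ≥0) : ℝ) - ((0 : ℝ≥0) : ℝ)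
      have : max (((n : ℝ) + 1) - 0) (0 - (-((n : ℝ) + 1))) = (n : ℝ) + 1 := by simp
      rw [this, NNReal.coe_zero, sub_zero, NNReal.coe_mul]
      exact le_rfl
    obtain ⟨α, hα0, hα⟩ := hPL.exists_eq_forall_mem_Icc_hasDerivWithinAt₀
    exact ⟨α, hα0, hα⟩
  choose α hα0 hα using key
  -- derivatives in the interior
  have hderiv : ∀ n : ℕ, ∀ t ∈ Ioo (-((n : ℝ) + 1)) ((n : ℝ) + 1),
      HasDerivAt (α n) (X (α n t)) t := by
    intro n t ht
    exact (hα n t (Ioo_subset_Icc_self ht)).hasDerivAt (Icc_mem_nhds ht.1 ht.2)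
  -- compatibility
  have hcompat : ∀ n m : ℕ, n ≤ m → ∀ t ∈ Ioo (-((n : ℝ) + 1)) ((n : ℝ) + 1), α n t = α m t := by
    intro n m hnm t ht
    have hnm' : (n : ℝ) ≤ m := by exact_mod_cast hnm
    have hnpos : (0 : ℝ) ≤ n := by positivity
    have := ODE_solution_unique_of_mem_Ioo (K := K) (v := fun _ => X) (s := fun _ => univ)
      (f := α n) (g := α m) (a := -((n : ℝ) + 1)) (b := (n : ℝ) + 1) (t₀ := 0)
      (fun _ _ => hK.lipschitzOnWith) ⟨by linarith, by linarith⟩
      (fun u hu => ⟨hderiv n u hu, mem_univ _⟩)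
      (fun u hu => ⟨hderiv m u ⟨by linarith [hu.1], by linarith [hu.2]⟩, mem_univ _⟩)
      (by rw [hα0, hα0]) ht
    exact this
  let idx : ℝ → ℕ := fun t => ⌈|t|⌉₊
  have hidx : ∀ t, t ∈ Ioo (-((idx t : ℝ) + 1)) ((idx t : ℝ) + 1) := by
    intro t
    have h1 : |t| ≤ (idx t : ℝ) := Nat.le_ceil _
    have h2 := abs_le.mp h1
    exact ⟨by linarith [h2.1], by linarith [h2.2]⟩
  have hγ : ∀ n : ℕ, ∀ t ∈ Ioo (-((n : ℝ) + 1)) ((n : ℝ) + 1), α (idx t) t = α n t := by
    intro n t ht
    rcases le_total (idx t) n with h | h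
    · exact hcompat _ _ h t (hidx t)
    · exact (hcompat _ _ h t ht).symm
  refine ⟨fun t => α (idx t) t, ?_, ?_⟩
  · simp [idx, hα0]
  · intro t
    have hd := hderiv (idx t) t (hidx t)
    refine hd.congr_of_eventuallyEq ?_
    filter_upwards [Ioo_mem_nhds (hidx t).1 (hidx t).2] with u hu
    exact hγ _ u hu

open Classical in
/-- The flow of a vector field (a global solution through every point, chosen). -/
noncomputable def flow (X : E → E) (t : ℝ) (x : E) : E :=
  if h : ∃ γ : ℝ → E, γ 0 = x ∧ ∀ t, HasDerivAt γ (X (γ t)) t then h.choose t else x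

variable {X : E → E} {K M : ℝ≥0}

theorem flow_zero (hK : LipschitzWith K X) (hM : ∀ x, ‖X x‖ ≤ M) (x : E) : flow X 0 x = x := by
  have h := exists_global_solution hK hM x
  simp only [flow, dif_pos h]
  exact h.choose_spec.1

theorem hasDerivAt_flow (hK : LipschitzWith K X) (hM : ∀ x, ‖X x‖ ≤ M) (t : ℝ) (x : E) :
    HasDerivAt (fun t => flow X t x) (X (flow X t x)) t := by
  have h := exists_global_solution hK hM x
  simp only [flow, dif_pos h]
  exact h.choose_spec.2 t

/-- Any global solution is a time-translate of the flow. -/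
theorem flow_unique (hK : LipschitzWith K X) (hM : ∀ x, ‖X x‖ ≤ M) {γ : ℝ → E}
    (hγ : ∀ t, HasDerivAt γ (X (γ t)) t) (t₀ t : ℝ) : γ t = flow X (t - t₀) (γ t₀) := by
  have h1 : ∀ u, HasDerivAt (fun u => flow X (u - t₀) (γ t₀)) (X (flow X (u - t₀) (γ t₀))) u := by
    intro u
    have := (hasDerivAt_flow hK hM (u - t₀) (γ t₀)).comp_sub_const u t₀
    exact this
  have := ODE_solution_unique_univ (K := K) (v := fun _ => X) (s := fun _ => univ) (t₀ := t₀)
    (f := γ) (g := fun u => flow X (u - t₀) (γ t₀))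
    (fun _ => hK.lipschitzOnWith)
    (fun u => ⟨hγ u, mem_univ _⟩) (fun u => ⟨h1 u, mem_univ _⟩)
    (by simp [flow_zero hK hM])
  exact congrFun this t

theorem flow_add (hK : LipschitzWith K X) (hM : ∀ x, ‖X x‖ ≤ M) (t u : ℝ) (x : E) :
    flow X (t + u) x = flow X t (flow X u x) := by
  have h := flow_unique hK hM (hasDerivAt_flow hK hM · x) u (t + u)
  simpa using h

/-- Dependence of the flow on the initial point. -/
theorem norm_flow_sub_flow_le (hK : LipschitzWith K X) (hM : ∀ x, ‖X x‖ ≤ M) (t : ℝ) (x y : E) :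
    ‖flow X t x - flow X t y‖ ≤ ‖x - y‖ * Real.exp (K * |t|) := by
  have := norm_le_gronwall_two_sided (E := E) (f := fun t => flow X t x - flow X t y)
    (f' := fun t => X (flow X t x) - X (flow X t y)) (K := K) (ε := 0) (δ := ‖x - y‖) (T := |t|)
    (fun u _ => (hasDerivAt_flow hK hM u x).sub (hasDerivAt_flow hK hM u y))
    (by simp [flow_zero hK hM])
    (fun u _ => by
      have := hK.dist_le_mul (flow X u x) (flow X u y)
      simpa [dist_eq_norm] using this) t ⟨by linarith [neg_abs_le t], le_abs_self t⟩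
  simpa [gronwallBound_ε0] using this

theorem norm_flow_sub_le (hK : LipschitzWith K X) (hM : ∀ x, ‖X x‖ ≤ M) (t : ℝ) (x : E) :
    ‖flow X t x - x‖ ≤ M * |t| := by
  have := norm_le_gronwall_two_sided (E := E) (f := fun t => flow X t x - x)
    (f' := fun t => X (flow X t x)) (K := 0) (ε := M) (δ := 0) (T := |t|)
    (fun u _ => (hasDerivAt_flow hK hM u x).sub_const x)
    (by simp [flow_zero hK hM])
    (fun u _ => by simpa using hM _) t ⟨by linarith [neg_abs_le t], le_abs_self t⟩
  simpa [gronwallBound_K0] using this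

theorem norm_flow_sub_flow_time_le (hK : LipschitzWith K X) (hM : ∀ x, ‖X x‖ ≤ M)
    (t u : ℝ) (x : E) : ‖flow X t x - flow X u x‖ ≤ M * |t - u| := by
  have h : flow X t x = flow X (t - u) (flow X u x) := by
    rw [← flow_add hK hM]; simp
  rw [h]
  exact norm_flow_sub_le hK hM _ _

theorem continuous_flow (hK : LipschitzWith K X) (hM : ∀ x, ‖X x‖ ≤ M) :
    Continuous (Function.uncurry (flow X)) := by
  rw [continuous_iff_continuousAt]
  rintro ⟨t₀, x₀⟩
  rw [Metric.continuousAt_iff]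
  intro ε hε
  -- uniform Lipschitz bound for `|t| ≤ |t₀| + 1`
  set C := Real.exp (K * (|t₀| + 1)) with hC
  have hCpos : 0 < C := Real.exp_pos _
  refine ⟨min 1 (min (ε / (2 * ((M : ℝ) + 1))) (ε / (2 * C))), by positivity, ?_⟩
  rintro ⟨t, x⟩ h
  have h1 : |t - t₀| < min 1 (min (ε / (2 * ((M : ℝ) + 1))) (ε / (2 * C))) := by
    have : dist t t₀ ≤ dist (t, x) (t₀, x₀) := le_max_left _ _
    rw [Real.dist_eq] at this
    exact lt_of_le_of_lt this h
  have h2 : ‖x - x₀‖ < min 1 (min (ε / (2 * ((M : ℝ) + 1))) (ε / (2 * C))) := by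
    have : dist x x₀ ≤ dist (t, x) (t₀, x₀) := le_max_right _ _
    rw [dist_eq_norm] at this
    exact lt_of_le_of_lt this h
  have h1a : |t - t₀| < 1 := lt_of_lt_of_le h1 (min_le_left _ _)
  have h1b : |t - t₀| < ε / (2 * ((M : ℝ) + 1)) :=
    lt_of_lt_of_le h1 ((min_le_right _ _).trans (min_le_left _ _))
  have h2b : ‖x - x₀‖ < ε / (2 * C) :=
    lt_of_lt_of_le h2 ((min_le_right _ _).trans (min_le_right _ _))
  have ht : |t| ≤ |t₀| + 1 := by
    have := abs_sub_abs_le_abs_sub t t₀
    linarith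
  have e1 : ‖flow X t x - flow X t x₀‖ ≤ ‖x - x₀‖ * C := by
    refine (norm_flow_sub_flow_le hK hM t x x₀).trans ?_
    apply mul_le_mul_of_nonneg_left _ (norm_nonneg _)
    exact Real.exp_le_exp.mpr (mul_le_mul_of_nonneg_left ht K.2)
  have e2 : ‖flow X t x₀ - flow X t₀ x₀‖ ≤ M * |t - t₀| := norm_flow_sub_flow_time_le hK hM _ _ _
  have e1' : ‖x - x₀‖ * C < ε / 2 := by
    have := mul_lt_mul_of_pos_right h2b hCpos
    have e : ε / (2 * C) * C = ε / 2 := by field_simp
    linarith
  have e2' : (M : ℝ) * |t - t₀| ≤ ε / 2 := by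
    have hM0 : (0 : ℝ) ≤ M := M.2
    have : ((M : ℝ) + 1) * |t - t₀| < ((M : ℝ) + 1) * (ε / (2 * ((M : ℝ) + 1))) := by
      apply mul_lt_mul_of_pos_left h1b (by positivity)
    have e : ((M : ℝ) + 1) * (ε / (2 * ((M : ℝ) + 1))) = ε / 2 := by field_simp
    nlinarith [abs_nonneg (t - t₀)]
  show dist (flow X t x) (flow X t₀ x₀) < ε
  rw [dist_eq_norm]
  calc ‖flow X t x - flow X t₀ x₀‖
      = ‖(flow X t x - flow X t x₀) + (flow X t x₀ - flow X t₀ x₀)‖ := by abel_nf
    _ ≤ ‖flow X t x - flow X t x₀‖ + ‖flow X t x₀ - flow X t₀ x₀‖ := norm_add_le _ _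
    _ < ε := by linarith

end Existence

section Smooth

universe u

variable {E : Type u} [NormedAddCommGroup E] [NormedSpace ℝ E]

theorem taylor_bound {X : E → E} (hX : Differentiable ℝ X) {C : ℝ≥0}
    (hC : LipschitzWith C (fderiv ℝ X)) (x y : E) :
    ‖X y - X x - fderiv ℝ X x (y - x)‖ ≤ C * ‖y - x‖ * ‖y - x‖ := by
  have hb : ∀ z ∈ closedBall x ‖y - x‖, ‖fderiv ℝ X z - fderiv ℝ X x‖ ≤ C * ‖y - x‖ := by
    intro z hz
    have := hC.dist_le_mul z x
    rw [dist_eq_norm] at this
    refine this.trans ?_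
    have h2 : dist z x ≤ ‖y - x‖ := hz
    exact mul_le_mul_of_nonneg_left h2 C.2
  exact Convex.norm_image_sub_le_of_norm_hasFDerivWithin_le'
    (fun z _ => (hX z).hasFDerivAt.hasFDerivWithinAt) hb (convex_closedBall _ _)
    (mem_closedBall_self (norm_nonneg _)) (by simp [dist_eq_norm])

theorem gronwallBound_zero_le {K ε x : ℝ} (hK : 0 ≤ K) (hε : 0 ≤ ε) (hx : 0 ≤ x) :
    gronwallBound 0 K ε x ≤ ε * x * Real.exp (K * x) := by
  rcases eq_or_lt_of_le hK with h | h
  · subst h
    simp [gronwallBound_K0]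
  · rw [gronwallBound_of_K_ne_0 h.ne']
    simp only [zero_mul, zero_add]
    have h1 : Real.exp (K * x) - 1 ≤ K * x * Real.exp (K * x) := by
      have := Real.add_one_le_exp (-(K * x))
      have h2 : Real.exp (-(K * x)) * Real.exp (K * x) = 1 := by
        rw [← Real.exp_add]; simp
      have h3 := Real.exp_pos (K * x)
      nlinarith
    have : ε / K * (Real.exp (K * x) - 1) ≤ ε / K * (K * x * Real.exp (K * x)) :=
      mul_le_mul_of_nonneg_left h1 (by positivity)
    calc ε / K * (Real.exp (K * x) - 1) ≤ ε / K * (K * x * Real.exp (K * x)) := this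
      _ = ε * x * Real.exp (K * x) := by field_simp

variable [CompleteSpace E]

/-- The variational equation yields the derivative of the flow in the space variable. -/
theorem hasFDerivAt_flow_of_variational {X : E → E} {K M C : ℝ≥0}
    (hK : LipschitzWith K X) (hM : ∀ x, ‖X x‖ ≤ M) (hX : Differentiable ℝ X)
    (hC : LipschitzWith C (fderiv ℝ X)) {T : ℝ} {x : E} {L : ℝ → E →L[ℝ] E}
    (hL0 : L 0 = ContinuousLinearMap.id ℝ E)
    (hL : ∀ t ∈ Icc (-T) T, HasDerivAt L ((fderiv ℝ X (flow X t x)).comp (L t)) t)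
    {t : ℝ} (ht : t ∈ Icc (-T) T) : HasFDerivAt (flow X t) (L t) x := by
  have hT : 0 ≤ T := by linarith [ht.1, ht.2]
  have htabs : |t| ≤ T := abs_le.mpr ht
  rw [hasFDerivAt_iff_isLittleO_nhds_zero]
  refine Asymptotics.IsBigO.trans_isLittleO (g := fun h : E => ‖h‖ ^ 2) ?_
    (Asymptotics.isLittleO_norm_pow_id one_lt_two)
  refine Asymptotics.IsBigO.of_bound
    (C * (Real.exp (K * T)) ^ 2 * T * Real.exp (K * T)) (Eventually.of_forall ?_)
  intro h
  set ε : ℝ := C * (‖h‖ * Real.exp (K * T)) ^ 2 with hε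
  have hbound : ∀ u ∈ Icc (-T) T,
      ‖(X (flow X u (x + h)) - X (flow X u x)
          - ((fderiv ℝ X (flow X u x)).comp (L u)) h)‖
        ≤ K * ‖flow X u (x + h) - flow X u x - L u h‖ + ε := by
    intro u hu
    have huabs : |u| ≤ T := abs_le.mpr hu
    set y := flow X u (x + h)
    set γ := flow X u x
    have e1 : X y - X γ - ((fderiv ℝ X γ).comp (L u)) h
        = (X y - X γ - fderiv ℝ X γ (y - γ)) + fderiv ℝ X γ (y - γ - L u h) := by
      simp only [ContinuousLinearMap.comp_apply, map_sub]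
      abel
    have hyγ : ‖y - γ‖ ≤ ‖h‖ * Real.exp (K * T) := by
      have := norm_flow_sub_flow_le hK hM u (x + h) x
      rw [add_sub_cancel_left] at this
      refine this.trans (mul_le_mul_of_nonneg_left ?_ (norm_nonneg _))
      exact Real.exp_le_exp.mpr (mul_le_mul_of_nonneg_left huabs K.2)
    have e2 := taylor_bound hX hC γ y
    have e3 : ‖fderiv ℝ X γ (y - γ - L u h)‖ ≤ K * ‖y - γ - L u h‖ := by
      refine (ContinuousLinearMap.le_opNorm _ _).trans ?_
      exact mul_le_mul_of_nonneg_right (norm_fderiv_le_of_lipschitz ℝ hK) (norm_nonneg _)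
    have e4 : (C : ℝ) * ‖y - γ‖ * ‖y - γ‖ ≤ ε := by
      have : ‖y - γ‖ * ‖y - γ‖ ≤ (‖h‖ * Real.exp (K * T)) ^ 2 := by
        rw [sq]
        exact mul_self_le_mul_self (norm_nonneg _) hyγ
      calc (C : ℝ) * ‖y - γ‖ * ‖y - γ‖ = C * (‖y - γ‖ * ‖y - γ‖) := by ring
        _ ≤ C * (‖h‖ * Real.exp (K * T)) ^ 2 := mul_le_mul_of_nonneg_left this C.2
    rw [e1]
    refine (norm_add_le _ _).trans ?_
    linarith
  have hε0 : 0 ≤ ε := by positivity
  have hmain := norm_le_gronwall_two_sided (E := E)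
    (f := fun u => flow X u (x + h) - flow X u x - L u h)
    (f' := fun u => X (flow X u (x + h)) - X (flow X u x)
      - ((fderiv ℝ X (flow X u x)).comp (L u)) h)
    (K := K) (ε := ε) (δ := 0) (T := T)
    (fun u hu => by
      have h1 := (hasDerivAt_flow hK hM u (x + h)).sub (hasDerivAt_flow hK hM u x)
      have h2 := (hL u hu).clm_apply (hasDerivAt_const u h)
      have h3 := h1.sub h2
      simp only [map_zero, add_zero, ContinuousLinearMap.comp_apply] at h3 ⊢
      exact h3)
    (by simp [flow_zero hK hM, hL0])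
    hbound t ht
  have hg := gronwallBound_zero_le K.2 hε0 (abs_nonneg t)
  have hrw : flow X t (x + h) - flow X t x - L t h = flow X t (x + h) - flow X t x - L t h := rfl
  simp only [norm_pow, norm_norm]
  refine hmain.trans (hg.trans ?_)
  have hexp : Real.exp (K * |t|) ≤ Real.exp (K * T) :=
    Real.exp_le_exp.mpr (mul_le_mul_of_nonneg_left htabs K.2)
  have hexp0 := Real.exp_pos (K * T)
  calc ε * |t| * Real.exp (K * |t|) ≤ ε * T * Real.exp (K * T) := by
        apply mul_le_mul (mul_le_mul_of_nonneg_left htabs hε0) hexp (Real.exp_pos _).le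
        positivity
    _ = C * (Real.exp (K * T)) ^ 2 * T * Real.exp (K * T) * ‖h‖ ^ 2 := by
        rw [hε]; ring

variable [FiniteDimensional ℝ E]

omit [CompleteSpace E] in
/-- Smooth compactly supported maps: Lipschitz constant. -/
theorem exists_lip {F : Type*} [NormedAddCommGroup F] [NormedSpace ℝ F] {X : E → F}
    (hX : ContDiff ℝ ∞ X) (hc : HasCompactSupport X) :
    ∃ K : ℝ≥0, LipschitzWith K X :=
  ContDiff.lipschitzWith_of_hasCompactSupport hc hX (by simp)

omit [CompleteSpace E] in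
theorem exists_bdd {F : Type*} [NormedAddCommGroup F] [NormedSpace ℝ F] {X : E → F}
    (hX : ContDiff ℝ ∞ X) (hc : HasCompactSupport X) :
    ∃ M : ℝ≥0, ∀ x, ‖X x‖ ≤ M := by
  obtain ⟨C, hC⟩ := hc.exists_bound_of_continuous hX.continuous
  refine ⟨⟨max C 0, le_max_right _ _⟩, fun x => (hC x).trans ?_⟩
  exact le_max_left _ _

omit [CompleteSpace E] [FiniteDimensional ℝ E] in
theorem contDiff_fderiv_of_smooth {X : E → E} (hX : ContDiff ℝ ∞ X) : ContDiff ℝ ∞ (fderiv ℝ X) :=
  hX.fderiv_right (m := ∞) (by simp)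

/-- The induction step of the smoothness of flows. -/
theorem contDiff_flow_succ (k : ℕ)
    (IH : ∀ {E : Type u} [NormedAddCommGroup E] [NormedSpace ℝ E] [CompleteSpace E]
      [FiniteDimensional ℝ E] (X : E → E), ContDiff ℝ ∞ X → HasCompactSupport X →
      ContDiff ℝ k (Function.uncurry (flow X)))
    (X : E → E) (hX : ContDiff ℝ ∞ X) (hc : HasCompactSupport X) :
    ContDiff ℝ (k + 1 : ℕ) (Function.uncurry (flow X)) := by
  obtain ⟨K, hK⟩ := exists_lip hX hc
  obtain ⟨M, hM⟩ := exists_bdd hX hc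
  have hDX : ContDiff ℝ ∞ (fderiv ℝ X) := contDiff_fderiv_of_smooth hX
  have hXd : Differentiable ℝ X := hX.differentiable (by simp)
  obtain ⟨C, hC⟩ : ∃ C : ℝ≥0, LipschitzWith C (fderiv ℝ X) := exists_lip hDX (hc.fderiv ℝ)
  have hDnorm : ∀ x, ‖fderiv ℝ X x‖ ≤ K := fun x => norm_fderiv_le_of_lipschitz ℝ hK
  have key : ∀ (T ρ : ℝ), 0 ≤ T → 0 ≤ ρ →
      ∃ Ξ : ℝ → E × (E →L[ℝ] E) → E × (E →L[ℝ] E), ContDiff ℝ k (Function.uncurry Ξ) ∧
        ∀ t ∈ Icc (-T) T, ∀ x, ‖x‖ ≤ ρ →
          HasFDerivAt (flow X t) (Ξ t (x, ContinuousLinearMap.id ℝ E)).2 x := by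
    intro T ρ hT hρ
    set R : ℝ := max (ρ + M * T) (Real.exp (K * T)) with hR
    have hRpos : 0 < R := lt_max_of_lt_right (Real.exp_pos _)
    let β : ContDiffBump (0 : E × (E →L[ℝ] E)) := ⟨R + 1, R + 2, by linarith, by linarith⟩
    let Y : E × (E →L[ℝ] E) → E × (E →L[ℝ] E) :=
      fun p => β p • (X p.1, (fderiv ℝ X p.1).comp p.2)
    have hYs : ContDiff ℝ ∞ Y :=
      β.contDiff.smul ((hX.comp contDiff_fst).prodMk ((hDX.comp contDiff_fst).clm_comp contDiff_snd))
    have hYc : HasCompactSupport Y := β.hasCompactSupport.smul_right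
    obtain ⟨KY, hKY⟩ := exists_lip hYs hYc
    obtain ⟨MY, hMY⟩ := exists_bdd hYs hYc
    refine ⟨flow Y, IH Y hYs hYc, ?_⟩
    intro t ht x hx
    set p : ℝ → E × (E →L[ℝ] E) := fun t => flow Y t (x, ContinuousLinearMap.id ℝ E) with hpdef
    have hp : ∀ t, HasDerivAt p (Y (p t)) t := fun t => hasDerivAt_flow hKY hMY t _
    have hp0 : p 0 = (x, ContinuousLinearMap.id ℝ E) := flow_zero hKY hMY _
    have hp1 : ∀ t, HasDerivAt (fun t => (p t).1) (β (p t) • X (p t).1) t := by
      intro t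
      exact ((ContinuousLinearMap.fst ℝ E (E →L[ℝ] E)).hasFDerivAt.comp_hasDerivAt t (hp t))
    have hp2 : ∀ t, HasDerivAt (fun t => (p t).2) (β (p t) • (fderiv ℝ X (p t).1).comp (p t).2) t := by
      intro t
      exact ((ContinuousLinearMap.snd ℝ E (E →L[ℝ] E)).hasFDerivAt.comp_hasDerivAt t (hp t))
    have hβ0 : ∀ q, 0 ≤ β q := fun q => β.nonneg
    have hβ1 : ∀ q, β q ≤ 1 := fun q => β.le_one
    have hsmul_le : ∀ (F : Type u) [NormedAddCommGroup F] [NormedSpace ℝ F] (q) (v : F),
        ‖β q • v‖ ≤ ‖v‖ := by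
      intro F _ _ q v
      rw [norm_smul, Real.norm_of_nonneg (hβ0 q)]
      exact mul_le_of_le_one_left (norm_nonneg _) (hβ1 q)
    have b1 : ∀ u ∈ Icc (-T) T, ‖(p u).1 - x‖ ≤ M * T := by
      intro u hu
      have := norm_le_gronwall_two_sided (E := E) (f := fun u => (p u).1 - x)
        (f' := fun u => β (p u) • X (p u).1) (K := 0) (ε := M) (δ := 0) (T := T)
        (fun u _ => (hp1 u).sub_const x) (by simp [hp0])
        (fun u _ => by
          have := (hsmul_le E (p u) (X (p u).1)).trans (hM _)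
          simpa using this) u hu
      rw [gronwallBound_K0] at this
      have h3 : |u| ≤ T := abs_le.mpr hu
      have h4 : (M : ℝ) * |u| ≤ M * T := mul_le_mul_of_nonneg_left h3 M.2
      simp only [zero_add] at this
      linarith
    have b2 : ∀ u ∈ Icc (-T) T, ‖(p u).2‖ ≤ Real.exp (K * T) := by
      intro u hu
      have := norm_le_gronwall_two_sided (E := E →L[ℝ] E) (f := fun u => (p u).2)
        (f' := fun u => β (p u) • (fderiv ℝ X (p u).1).comp (p u).2) (K := K) (ε := 0) (δ := 1)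
        (T := T) (fun u _ => hp2 u)
        (by rw [hp0]; exact ContinuousLinearMap.norm_id_le)
        (fun u _ => by
          refine (hsmul_le (E →L[ℝ] E) (p u) _).trans ?_
          rw [add_zero]
          refine (ContinuousLinearMap.opNorm_comp_le _ _).trans ?_
          exact mul_le_mul_of_nonneg_right (hDnorm _) (norm_nonneg _)) u hu
      rw [gronwallBound_ε0, one_mul] at this
      refine this.trans (Real.exp_le_exp.mpr (mul_le_mul_of_nonneg_left (abs_le.mpr hu) K.2))
    have hβone : ∀ u ∈ Icc (-T) T, β (p u) = 1 := by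
      intro u hu
      apply β.one_of_mem_closedBall
      rw [mem_closedBall, dist_zero_right, Prod.norm_def]
      apply max_le
      · have h1 : ‖(p u).1‖ ≤ ‖(p u).1 - x‖ + ‖x‖ := by
          have := norm_add_le ((p u).1 - x) x
          rwa [sub_add_cancel] at this
        have h2 := b1 u hu
        have h3 : ρ + M * T ≤ R := le_max_left _ _
        show ‖(p u).1‖ ≤ R + 1
        linarith
      · have h3 : Real.exp (K * T) ≤ R := le_max_right _ _
        have := b2 u hu
        show ‖(p u).2‖ ≤ R + 1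
        linarith
    have hid : ∀ u ∈ Icc (-T) T, (p u).1 = flow X u x := by
      intro u hu
      have := norm_le_gronwall_two_sided (E := E) (f := fun u => (p u).1 - flow X u x)
        (f' := fun u => β (p u) • X (p u).1 - X (flow X u x)) (K := K) (ε := 0) (δ := 0) (T := T)
        (fun u _ => (hp1 u).sub (hasDerivAt_flow hK hM u x))
        (by simp [hp0, flow_zero hK hM])
        (fun v hv => by
          rw [hβone v hv, one_smul, add_zero]
          have := hK.dist_le_mul (p v).1 (flow X v x)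
          simpa [dist_eq_norm] using this) u hu
      rw [gronwallBound_ε0, zero_mul] at this
      exact sub_eq_zero.mp (norm_le_zero_iff.mp this)
    refine hasFDerivAt_flow_of_variational hK hM hXd hC (T := T) (L := fun u => (p u).2)
      (by simp [hp0]) ?_ ht
    intro u hu
    have := hp2 u
    rw [hβone u hu, one_smul, hid u hu] at this
    exact this
  -- the space derivative
  let D : ℝ → E → E →L[ℝ] E := fun t x => fderiv ℝ (flow X t) x
  have hD1 : ∀ t x, HasFDerivAt (flow X t) (D t x) x := by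
    intro t x
    obtain ⟨Ξ, -, hΞ⟩ := key |t| ‖x‖ (abs_nonneg t) (norm_nonneg x)
    have := hΞ t ⟨neg_abs_le t, le_abs_self t⟩ x le_rfl
    exact this.differentiableAt.hasFDerivAt
  have hD2 : ContDiff ℝ k (Function.uncurry D) := by
    rw [contDiff_iff_contDiffAt]
    rintro ⟨t₀, x₀⟩
    obtain ⟨Ξ, hΞs, hΞ⟩ := key (|t₀| + 1) (‖x₀‖ + 1) (by positivity) (by positivity)
    let g : ℝ × E → E →L[ℝ] E := fun u => (Ξ u.1 (u.2, ContinuousLinearMap.id ℝ E)).2
    have hg : ContDiff ℝ k g := by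
      have : ContDiff ℝ k (fun u : ℝ × E => ((u.1, (u.2, ContinuousLinearMap.id ℝ E)) :
          ℝ × E × (E →L[ℝ] E))) :=
        contDiff_fst.prodMk (contDiff_snd.prodMk contDiff_const)
      exact contDiff_snd.comp (hΞs.comp this)
    refine hg.contDiffAt.congr_of_eventuallyEq ?_
    have h1 : ∀ᶠ u : ℝ × E in 𝓝 (t₀, x₀), u.1 ∈ Ioo (-(|t₀| + 1)) (|t₀| + 1) := by
      have : Ioo (-(|t₀| + 1)) (|t₀| + 1) ∈ 𝓝 t₀ :=
        Ioo_mem_nhds (by linarith [neg_abs_le t₀]) (by linarith [le_abs_self t₀])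
      exact continuous_fst.continuousAt.eventually this
    have h2 : ∀ᶠ u : ℝ × E in 𝓝 (t₀, x₀), ‖u.2‖ < ‖x₀‖ + 1 := by
      have : Continuous fun u : ℝ × E => ‖u.2‖ := continuous_snd.norm
      exact this.continuousAt.eventually (gt_mem_nhds (by simp))
    filter_upwards [h1, h2] with u hu1 hu2
    exact (hΞ u.1 (Ioo_subset_Icc_self hu1) u.2 hu2.le).fderiv
  have hΦ : ContDiff ℝ k (Function.uncurry (flow X)) := IH X hX hc
  let S : E →L[ℝ] (ℝ →L[ℝ] E) := (ContinuousLinearMap.smulRightL ℝ ℝ E) (1 : ℝ →L[ℝ] ℝ)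
  let f₁ : ℝ → E → ℝ →L[ℝ] E := fun t x => S (X (flow X t x))
  have hf₁ : ContDiff ℝ k (Function.uncurry f₁) :=
    S.contDiff.comp ((hX.of_le (by exact_mod_cast le_top)).comp hΦ)
  have hstrict : ∀ u : ℝ × E, HasStrictFDerivAt (Function.uncurry (flow X))
      ((Function.uncurry f₁ u).coprod (Function.uncurry D u)) u := by
    intro u
    refine hasStrictFDerivAt_uncurry_coprod (f := flow X) (f₁ := f₁) (f₂ := D)
      (Eventually.of_forall fun v => ?_) (Eventually.of_forall fun v => hD1 v.1 v.2)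
      hf₁.continuous.continuousAt hD2.continuous.continuousAt
    exact (hasDerivAt_flow hK hM v.1 v.2).hasFDerivAt
  have hfd : fderiv ℝ (Function.uncurry (flow X)) =
      fun u => (Function.uncurry f₁ u).comp (ContinuousLinearMap.fst ℝ ℝ E)
        + (Function.uncurry D u).comp (ContinuousLinearMap.snd ℝ ℝ E) := by
    funext u
    rw [(hstrict u).hasFDerivAt.fderiv]
    ext <;> simp
  have hdiff : Differentiable ℝ (Function.uncurry (flow X)) :=
    fun u => (hstrict u).hasFDerivAt.differentiableAt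
  rw [Nat.cast_succ, contDiff_succ_iff_fderiv]
  refine ⟨hdiff, by simp, ?_⟩
  rw [hfd]
  exact (hf₁.clm_comp contDiff_const).add (hD2.clm_comp contDiff_const)

theorem contDiff_flow_nat (k : ℕ) : ∀ {E : Type u} [NormedAddCommGroup E] [NormedSpace ℝ E]
    [CompleteSpace E] [FiniteDimensional ℝ E] (X : E → E), ContDiff ℝ ∞ X → HasCompactSupport X →
    ContDiff ℝ k (Function.uncurry (flow X)) := by
  induction k with
  | zero =>
    intro E _ _ _ _ X hX hc
    obtain ⟨K, hK⟩ := exists_lip hX hc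
    obtain ⟨M, hM⟩ := exists_bdd hX hc
    have : ContDiff ℝ 0 (Function.uncurry (flow X)) := contDiff_zero.mpr (continuous_flow hK hM)
    simpa using this
  | succ k ih =>
    intro E _ _ _ _ X hX hc
    exact contDiff_flow_succ k ih X hX hc

/-- **Smooth dependence**: the flow of a smooth compactly supported vector field is jointly
smooth. -/
theorem contDiff_flow (X : E → E) (hX : ContDiff ℝ ∞ X) (hc : HasCompactSupport X) :
    ContDiff ℝ ∞ (Function.uncurry (flow X)) :=
  contDiff_infty.mpr fun k => contDiff_flow_nat k X hX hc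

end Smooth

end Crest.Agent.Lib.SmoothFlow
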